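import Vale.Agent.Results.P338.Fast

open Vale.Agent.P338

theorem Vale.Agent.Results.P338.Explicit.result :
    (∃ (A : TM) (C : ℝ), A.Multiplies ∧
      ∀ n : ℕ, 2 ≤ n → (A.time n : ℝ) ≤ C * n * Real.log n ^ (1 - 1 / 2 ^ 92 : ℝ)) ∧
    ¬ ∀ A : TM, A.Multiplies → ∃ (c : ℝ) (N : ℕ), 0 < c ∧ 2 ≤ N ∧
      ∀ n : ℕ, N ≤ n → c * n * Real.log n ≤ (A.time n : ℝ) :=
  ⟨fast_machine' rfl, Vale.Agent.Results.P338.Fast.result.2⟩
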