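import Vale.Agent.P338.Top

open Vale.Agent.P338 Filter

theorem Vale.Agent.Results.P338.Fast.result :
    (∃ (A : TM) (κ C : ℝ), 0 < κ ∧ A.Multiplies ∧
      ∀ n : ℕ, 2 ≤ n → (A.time n : ℝ) ≤ C * n * Real.log n ^ (1 - κ)) ∧
    ¬ ∀ A : TM, A.Multiplies → ∃ (c : ℝ) (N : ℕ), 0 < c ∧ 2 ≤ N ∧
      ∀ n : ℕ, N ≤ n → c * n * Real.log n ≤ (A.time n : ℝ) := by
  refine ⟨fast_machine, fun h => ?_⟩
  obtain ⟨A, κ, C, k0, h1, h2⟩ := fast_machine
  obtain ⟨c, N, c0, hN, h3⟩ := h A h1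
  have t : Tendsto (fun n : ℕ => c * Real.log n ^ κ) atTop atTop :=
    ((tendsto_rpow_atTop k0).comp
      (Real.tendsto_log_atTop.comp tendsto_natCast_atTop_atTop)).const_mul_atTop c0
  obtain ⟨n, a1, a2⟩ := ((t.eventually_gt_atTop C).and (eventually_ge_atTop N)).exists
  have n2 : (2 : ℝ) ≤ n := by exact_mod_cast hN.trans a2
  have l0 : 0 < Real.log n := Real.log_pos (by linarith)
  have a3 := (h3 n a2).trans (h2 n (hN.trans a2))
  have e : c * n * Real.log n = c * Real.log n ^ κ * (n * Real.log n ^ (1 - κ)) := by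
    have : Real.log n ^ κ * Real.log n ^ (1 - κ) = Real.log n := by rw [← Real.rpow_add l0]; simp
    calc c * n * Real.log n = c * n * (Real.log n ^ κ * Real.log n ^ (1 - κ)) := by rw [this]
      _ = _ := by ring
  have a4 := mul_lt_mul_of_pos_right a1 (show 0 < n * Real.log n ^ (1 - κ) by positivity)
  rw [e, mul_assoc C] at a3
  linarith
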